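import Vale.Agent.P269CQ.Main
import Vale.Agent.P269CD.Defs2

/-!
# P269CQ / Two : the core of the double counting, and row DC2
-/

noncomputable section

namespace Vale.Agent.P269CQ

open Set Filter MeasureTheory Vale.Agent.P269C Vale.Agent.P272.K
open scoped Topology Classical

variable {D : ℕ}

/-- the two integrals agree on the measurable subsets of `O` -/
structure Ok2 (w : Cm D → ℝ) (g A : Cm D → ℂ) (K Z : Set (Cm D)) (N : Cm D → Cm D → ℕ)
    (O : Set (Cm D)) : Prop where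
  op : IsOpen O
  fin : ∀ᵐ x, x ∈ K → {y ∈ O \ Z | N y x ≠ 0}.Finite
  eq : ∀ S ⊆ O, MeasurableSet S → IntegrableOn (fun y => w y * A y) S ∧
    Integrable (fun x => g x * ((∑ᶠ y ∈ S \ Z, (N y x : ℝ) * w y : ℝ) : ℂ)) ∧
    ∫ y in S, w y * A y = ∫ x, g x * ((∑ᶠ y ∈ S \ Z, (N y x : ℝ) * w y : ℝ) : ℂ)

variable {w : Cm D → ℝ} {g A : Cm D → ℂ} {K Z : Set (Cm D)} {N : Cm D → Cm D → ℕ}

theorem Ok2.empty : Ok2 w g A K Z N ∅ where
  op := isOpen_empty
  fin := Eventually.of_forall fun x _ => by simp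
  eq S hS _ := by
    rw [subset_empty_iff.1 hS]
    simp

theorem Ok2.union (hg : ∀ x, x ∉ K → g x = 0) {O O' : Set (Cm D)} (h : Ok2 w g A K Z N O)
    (h' : Ok2 w g A K Z N O') : Ok2 w g A K Z N (O ∪ O') where
  op := h.op.union h'.op
  fin := by
    filter_upwards [h.fin, h'.fin] with x h1 h2 hx
    refine ((h1 hx).union (h2 hx)).subset fun y hy => ?_
    exact hy.1.1.elim (fun a => Or.inl ⟨⟨a, hy.1.2⟩, hy.2⟩) fun a => Or.inr ⟨⟨a, hy.1.2⟩, hy.2⟩
  eq S hS hm := by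
    have m1 : MeasurableSet (S ∩ O) := hm.inter h.op.measurableSet
    have m2 : MeasurableSet (S \ O) := hm.diff h.op.measurableSet
    have s2 : S \ O ⊆ O' := fun y hy => (hS hy.1).resolve_left hy.2
    obtain ⟨a1, a2, a3⟩ := h.eq _ inter_subset_right m1
    obtain ⟨b1, b2, b3⟩ := h'.eq _ s2 m2
    have hd : Disjoint (S ∩ O) (S \ O) := disjoint_left.2 fun y h1 h2 => h2.2 h1.2
    have e : (fun x => g x * ((∑ᶠ y ∈ (S ∩ O) \ Z, (N y x : ℝ) * w y : ℝ) : ℂ) +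
        g x * ((∑ᶠ y ∈ (S \ O) \ Z, (N y x : ℝ) * w y : ℝ) : ℂ)) =ᵐ[volume]
        fun x => g x * ((∑ᶠ y ∈ S \ Z, (N y x : ℝ) * w y : ℝ) : ℂ) := by
      filter_upwards [h.fin, h'.fin] with x h1 h2
      by_cases hx : x ∈ K
      · conv_rhs => rw [← inter_union_sdiff S O, union_sdiff_distrib]
        rw [finsum_mem_union' (hd.mono sdiff_subset sdiff_subset)]
        · push_cast; ring
        · refine (h1 hx).subset fun y hy => ⟨⟨hy.1.1.2, hy.1.2⟩, fun h0 => hy.2 ?_⟩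
          simp [h0]
        · refine (h2 hx).subset fun y hy => ⟨⟨s2 hy.1.1, hy.1.2⟩, fun h0 => hy.2 ?_⟩
          simp [h0]
      · simp [hg x hx]
    refine ⟨?_, (a2.add b2).congr e, ?_⟩
    · rw [← inter_union_sdiff S O]
      exact a1.union b1
    · rw [← integral_congr_ae e, integral_add a2 b2, ← a3, ← b3, ← setIntegral_union hd m2 a1 b1,
        inter_union_sdiff]

theorem ok2_loc (hw : Continuous w) (hZ : volume Z = 0) (hF : Continuous g)
    (hg : ∀ x, x ∉ K → g x = 0) {y₀ : Cm D} {k : ℕ} {φ : Fin k → Cm D → Cm D}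
    (ha : ∀ j, AnalyticAt ℂ (φ j) y₀)
    (hN : ∀ᶠ y in 𝓝 y₀, y ∉ Z → ∀ x ∈ K, N y x = (Finset.univ.filter fun j => φ j y = x).card)
    (h1 : ∀ᶠ y in nae y₀, w y ≠ 0 →
      A y = ∑ j, ((‖(jac (φ j) y).det‖ ^ 2 : ℝ) : ℂ) * g (φ j y)) :
    ∃ O, y₀ ∈ O ∧ Ok2 w g A K Z N O := by
  obtain ⟨U, hU, V, hV, hUV⟩ := mem_inf_iff_superset.1 h1
  have h2 : ∀ᶠ y in 𝓝 y₀, ∀ j, AnalyticAt ℂ (φ j) y :=
    eventually_all.2 fun j => (ha j).eventually_analyticAt
  obtain ⟨Q, hQ, hQs, hQc⟩ := local_compact_nhds (inter_mem hU (h2.and hN))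
  have an : ∀ j, ∀ y ∈ Q, AnalyticAt ℂ (φ j) y := fun j y hy => (hQs hy).2.1 j
  have st : ∀ j, ∀ y ∈ Q, HasStrictFDerivAt (φ j) (fderiv ℝ (φ j) y) y := fun j y hy =>
    an_strict (an j y hy)
  have cn : ∀ y ∈ Q, y ∉ Z → ∀ x ∈ K, N y x = (Finset.univ.filter fun j => φ j y = x).card :=
    fun y hy => (hQs hy).2.2
  have fi : ∀ᵐ x, ∀ j, (Q ∩ φ j ⁻¹' {x}).Finite := by
    refine ae_all_iff.2 fun j => ?_
    filter_upwards [crit_null volume (st j)] with x hx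
    exact fib_fin hQc (st j) hx
  have nz : ∀ᵐ x, ∀ j, x ∉ φ j '' (Q ∩ Z) := by
    refine ae_all_iff.2 fun j => compl_mem_ae_iff.2 ?_
    exact addHaar_image_eq_zero_of_differentiableOn_of_addHaar_eq_zero volume
      (fun y hy => (st j y hy.1).hasFDerivAt.differentiableAt.differentiableWithinAt)
      (measure_mono_null inter_subset_right hZ)
  refine ⟨interior Q, mem_interior_iff_mem_nhds.2 hQ, isOpen_interior, ?_, fun S hS hm => ?_⟩
  · filter_upwards [fi] with x h1 hx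
    refine (finite_iUnion h1).subset fun y hy => ?_
    have h0 := hy.2
    rw [cn y (interior_subset hy.1.1) hy.1.2 x hx] at h0
    obtain ⟨j, hj⟩ := Finset.card_ne_zero.1 h0
    exact mem_iUnion.2 ⟨j, interior_subset hy.1.1, (Finset.mem_filter.1 hj).2⟩
  · have hSK : S ⊆ Q := hS.trans interior_subset
    have hi : ∀ j, IntegrableOn (fun y => |(fderiv ℝ (φ j) y).det| •
        ((w y : ℂ) * g (φ j y))) S := by
      intro j
      refine (ContinuousOn.integrableOn_compact hQc fun y hy => ?_).mono_set hSK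
      have c1 : ContinuousAt (fderiv ℝ (φ j)) y :=
        (((an j y hy).contDiffAt (n := 1)).restrict_scalars ℝ).continuousAt_fderiv one_ne_zero
      exact (((ContinuousLinearMap.continuous_det.continuousAt.comp c1).abs).smul
        ((Complex.continuous_ofReal.comp hw).continuousAt.mul
          (hF.continuousAt.comp (an j y hy).continuousAt))).continuousWithinAt
    have ar := fun j => area volume hQc (st j) hm hSK (hi j)
    have eA : (fun y => ∑ j, |(fderiv ℝ (φ j) y).det| • ((w y : ℂ) * g (φ j y)))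
        =ᵐ[volume.restrict S] fun y => w y * A y := by
      refine (ae_restrict_iff' hm).2 ?_
      filter_upwards [hV] with y hyV hy
      by_cases h0 : w y = 0
      · simp [h0]
      rw [hUV ⟨(hQs (hSK hy)).1, hyV⟩ h0, Finset.mul_sum]
      refine Finset.sum_congr rfl fun j _ => ?_
      rw [abs_det (an j y (hSK hy)), Complex.real_smul]
      ring
    have eB : (fun x => ∑ j, ∑ᶠ y ∈ S ∩ φ j ⁻¹' {x}, (w y : ℂ) * g (φ j y))
        =ᵐ[volume] fun x => g x * ((∑ᶠ y ∈ S \ Z, (N y x : ℝ) * w y : ℝ) : ℂ) := by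
      filter_upwards [fi, nz] with x h1 hz
      have hf : ∀ j, (S ∩ φ j ⁻¹' {x}).Finite := fun j =>
        (h1 j).subset (inter_subset_inter_left _ hSK)
      have e3 : ∀ j, ∑ᶠ y ∈ S ∩ φ j ⁻¹' {x}, (w y : ℂ) * g (φ j y) =
          g x * ((∑ᶠ y ∈ S ∩ φ j ⁻¹' {x}, w y : ℝ) : ℂ) := by
        intro j
        rw [finsum_mem_eq_finite_toFinset_sum _ (hf j), finsum_mem_eq_finite_toFinset_sum _ (hf j)]
        push_cast
        rw [Finset.mul_sum]
        refine Finset.sum_congr rfl fun y hy => ?_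
        rw [show φ j y = x from ((hf j).mem_toFinset.1 hy).2]
        ring
      simp only [e3]
      by_cases hx : x ∈ K
      · rw [← Finset.mul_sum, ← Complex.ofReal_sum]
        congr 2
        simp only [finsum_mem_def]
        rw [← finsum_sum_comm _ _ fun j _ => (hf j).subset support_indicator_subset]
        refine finsum_congr fun y => ?_
        by_cases hy : y ∈ S
        · by_cases hyz : y ∈ Z
          · rw [indicator_of_notMem fun hh => hh.2 hyz]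
            exact Finset.sum_eq_zero fun j _ =>
              indicator_of_notMem (fun hh => hz j ⟨y, ⟨hSK hy, hyz⟩, hh.2⟩) _
          · rw [indicator_of_mem (show y ∈ S \ Z from ⟨hy, hyz⟩), cn y (hSK hy) hyz x hx, card_mul]
            refine Finset.sum_congr rfl fun j _ => ?_
            simp [indicator, hy]
        · simp [indicator, hy]
      · simp [hg x hx]
    refine ⟨(integrable_finsetSum _ fun j _ => hi j).congr eA,
      (integrable_finsetSum _ fun j _ => (ar j).1).congr eB, ?_⟩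
    rw [← integral_congr_ae eA, ← integral_congr_ae eB, integral_finsetSum _ fun j _ => hi j,
      integral_finsetSum _ fun j _ => (ar j).1]
    exact Finset.sum_congr rfl fun j _ => (ar j).2.symm

theorem core2 (hw : Continuous w) (hc : HasCompactSupport w) (hZ : volume Z = 0)
    (hF : Continuous g) (hg : ∀ x, x ∉ K → g x = 0)
    (h : ∀ y₀ ∈ tsupport w, ∃ (k : ℕ) (φ : Fin k → Cm D → Cm D), (∀ j, AnalyticAt ℂ (φ j) y₀) ∧
      (∀ᶠ y in 𝓝 y₀, y ∉ Z → ∀ x ∈ K, N y x = (Finset.univ.filter fun j => φ j y = x).card) ∧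
      ∀ᶠ y in nae y₀, w y ≠ 0 → A y = ∑ j, ((‖(jac (φ j) y).det‖ ^ 2 : ℝ) : ℂ) * g (φ j y)) :
    Integrable (fun y => w y * A y) ∧
    Integrable (fun x => g x * ((∑ᶠ y ∈ Zᶜ, (N y x : ℝ) * w y : ℝ) : ℂ)) ∧
    ∫ y, w y * A y = ∫ x, g x * ((∑ᶠ y ∈ Zᶜ, (N y x : ℝ) * w y : ℝ) : ℂ) := by
  have : ∃ O, tsupport w ⊆ O ∧ Ok2 w g A K Z N O := by
    refine IsCompact.induction_on (p := fun s => ∃ O, s ⊆ O ∧ Ok2 w g A K Z N O) hc
      ⟨∅, Subset.rfl, Ok2.empty⟩ (fun s t hst ⟨O, h1, h2⟩ => ⟨O, hst.trans h1, h2⟩)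
      (fun s t ⟨O, h1, h2⟩ ⟨O', h3, h4⟩ => ⟨_, union_subset_union h1 h3, h2.union hg h4⟩) ?_
    intro y hy
    obtain ⟨k, φ, a, b, c⟩ := h y hy
    obtain ⟨O, h1, h2⟩ := ok2_loc hw hZ hF hg a b c
    exact ⟨O, mem_nhdsWithin_of_mem_nhds (h2.op.mem_nhds h1), O, Subset.rfl, h2⟩
  obtain ⟨O, hO, ok⟩ := this
  obtain ⟨a1, a2, a3⟩ := ok.eq _ hO (isClosed_tsupport w).measurableSet
  have z : ∀ y ∉ tsupport w, w y * A y = 0 := fun y hy => by
    simp [image_eq_zero_of_notMem_tsupport hy]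
  have e : (fun x => g x * ((∑ᶠ y ∈ tsupport w \ Z, (N y x : ℝ) * w y : ℝ) : ℂ)) =
      fun x => g x * ((∑ᶠ y ∈ Zᶜ, (N y x : ℝ) * w y : ℝ) : ℂ) := by
    funext x
    congr 2
    refine finsum_mem_inter_support_eq' _ _ _ fun y hy => ?_
    have hw' : y ∈ tsupport w := subset_tsupport _ (right_ne_zero_of_mul hy)
    exact ⟨fun a => a.2, fun a => ⟨hw', a⟩⟩
  refine ⟨a1.integrable_of_forall_notMem_eq_zero z, e ▸ a2, ?_⟩
  rw [← setIntegral_eq_integral_of_forall_compl_eq_zero z, a3, e]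

/-- the lemma `CORE` -/
theorem core (D : ℕ) (w : Cm D → ℝ) (g A : Cm D → ℂ) (K Z : Set (Cm D)) (N : Cm D → Cm D → ℕ)
    (hw : Continuous w) (hc : HasCompactSupport w) (hZ : volume Z = 0)
    (hF : Continuous g) (hg : ∀ x, x ∉ K → g x = 0)
    (h : ∀ y₀ ∈ tsupport w, ∃ (k : ℕ) (φ : Fin k → Cm D → Cm D), (∀ j, AnalyticAt ℂ (φ j) y₀) ∧
      (∀ᶠ y in 𝓝 y₀, ∀ x ∈ K, N y x = (Finset.univ.filter fun j => φ j y = x).card) ∧
      ∀ᶠ y in nae y₀, w y ≠ 0 → A y = ∑ j, ((‖(jac (φ j) y).det‖ ^ 2 : ℝ) : ℂ) * g (φ j y)) :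
    Integrable (fun y => w y * A y) ∧
    Integrable (fun x => g x * ((∑ᶠ y ∈ Zᶜ, (N y x : ℝ) * w y : ℝ) : ℂ)) ∧
    ∫ y, w y * A y = ∫ x, g x * ((∑ᶠ y ∈ Zᶜ, (N y x : ℝ) * w y : ℝ) : ℂ) :=
  core2 hw hc hZ hF hg fun y hy => by
    obtain ⟨k, φ, a, b, c⟩ := h y hy
    exact ⟨k, φ, a, b.mono fun y hy _ => hy, c⟩

theorem sum_cnt {ρ : Cm D → ℝ} {k : ℕ} {φ : Fin k → Cm D} {n : Cm D → ℕ}
    (h : ∀ x ∈ tsupport ρ, n x = (Finset.univ.filter fun j => φ j = x).card) :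
    ∑ᶠ x, (n x : ℝ) * ρ x = ∑ j, ρ (φ j) := by
  have e1 : (fun x => (n x : ℝ) * ρ x) = fun x => ∑ j, if φ j = x then ρ x else 0 := by
    funext x
    by_cases hx : x ∈ tsupport ρ
    · rw [h x hx, card_mul]
    · simp [image_eq_zero_of_notMem_tsupport hx]
  rw [e1, finsum_sum_comm]
  · refine Finset.sum_congr rfl fun j _ => ?_
    rw [finsum_eq_single _ (φ j) fun x hx => if_neg (Ne.symm hx), if_pos rfl]
  · intro j _
    exact (finite_singleton (φ j)).subset fun x hx => by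
      by_contra hne
      exact hx (if_neg (Ne.symm hne))

theorem pair2 {ρ : Cm D → ℝ} {T T' : Cm D → ℂ} (hw : Continuous w) (hc : HasCompactSupport w)
    (hZ : volume Z = 0) (hρ : Continuous ρ) (hT : ∀ x ∈ tsupport ρ, ContinuousAt T' x)
    (h : ∀ y₀ ∈ tsupport w, ∃ (k : ℕ) (φ : Fin k → Cm D → Cm D), (∀ j, AnalyticAt ℂ (φ j) y₀) ∧
      (∀ᶠ y in 𝓝 y₀, y ∉ Z → ∀ x ∈ tsupport ρ,
        N y x = (Finset.univ.filter fun j => φ j y = x).card) ∧
      ∀ j, φ j y₀ ∈ tsupport ρ →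
        ∀ᶠ y in nae y₀, T y = ((‖(jac (φ j) y).det‖ ^ 2 : ℝ) : ℂ) * T' (φ j y)) :
    Integrable (fun y => w y * (T y * ((∑ᶠ x, (N y x : ℝ) * ρ x : ℝ) : ℂ))) ∧
    Integrable (fun x => ρ x * T' x * ((∑ᶠ y ∈ Zᶜ, (N y x : ℝ) * w y : ℝ) : ℂ)) ∧
    ∫ y, w y * (T y * ((∑ᶠ x, (N y x : ℝ) * ρ x : ℝ) : ℂ)) =
      ∫ x, ρ x * T' x * ((∑ᶠ y ∈ Zᶜ, (N y x : ℝ) * w y : ℝ) : ℂ) := by
  have hF : Continuous fun x => (ρ x : ℂ) * T' x := by
    refine continuous_iff_continuousAt.2 fun x => ?_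
    by_cases hx : x ∈ tsupport ρ
    · exact (Complex.continuous_ofReal.comp hρ).continuousAt.mul (hT x hx)
    · refine (continuousAt_const (y := (0 : ℂ))).congr ?_
      filter_upwards [notMem_tsupport_iff_eventuallyEq.1 hx] with z hz
      simp [hz]
  refine core2 (K := tsupport ρ) hw hc hZ hF
    (fun x hx => by simp [image_eq_zero_of_notMem_tsupport hx]) fun y₀ hy => ?_
  obtain ⟨k, φ, ha, hN, hφ⟩ := h y₀ hy
  refine ⟨k, φ, ha, hN, ?_⟩
  have h1 : ∀ᶠ y in nae y₀, ∀ j, (ρ (φ j y) : ℂ) * T y =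
      ((‖(jac (φ j) y).det‖ ^ 2 : ℝ) : ℂ) * (ρ (φ j y) * T' (φ j y)) := by
    refine eventually_all.2 fun j => ?_
    by_cases hx : φ j y₀ ∈ tsupport ρ
    · filter_upwards [hφ j hx] with y hy
      rw [hy]; ring
    · have := (ha j).continuousAt.eventually (notMem_tsupport_iff_eventuallyEq.1 hx)
      filter_upwards [this.filter_mono (inf_le_left : nae y₀ ≤ 𝓝 y₀)] with y hy
      simp [hy]
  filter_upwards [h1, hN.filter_mono (inf_le_left : nae y₀ ≤ 𝓝 y₀),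
    (inf_le_right : nae y₀ ≤ ae volume) (compl_mem_ae_iff.2 hZ)] with y a b c _
  rw [sum_cnt (b c), Complex.ofReal_sum, Finset.mul_sum]
  exact Finset.sum_congr rfl fun j _ => by rw [← a j, mul_comm]

theorem dc2 : P269CD.DC2 := by
  intro D ι κ _ _ w ρ T T' N Z h1 h2 h3 h4 h5
  have p := fun a b => pair2 (h1 a).1 (h1 a).2.1 (h1 a).2.2 (h2 b).1 (h2 b).2.2 (h5 a b)
  have e1 : ∀ a, ∫ y, w a y * T a y =
      ∑ b, ∫ y, w a y * (T a y * ((∑ᶠ x, (N a b y x : ℝ) * ρ b x : ℝ) : ℂ)) := by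
    intro a
    rw [← integral_finsetSum _ fun b _ => (p a b).1]
    refine integral_congr_ae ?_
    filter_upwards [h3 a] with y hy
    by_cases h0 : w a y = 0
    · simp [h0]
    · rw [← Finset.mul_sum, ← Finset.mul_sum, ← Complex.ofReal_sum, hy h0]
      simp
  have e2 : ∀ b, ∫ x, ρ b x * T' b x =
      ∑ a, ∫ x, ρ b x * T' b x * ((∑ᶠ y ∈ (Z a)ᶜ, (N a b y x : ℝ) * w a y : ℝ) : ℂ) := by
    intro b
    rw [← integral_finsetSum _ fun a _ => (p a b).2.1]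
    refine integral_congr_ae ?_
    filter_upwards [h4 b] with y hy
    by_cases h0 : ρ b y = 0
    · simp [h0]
    · rw [← Finset.mul_sum, ← Complex.ofReal_sum, hy h0]
      simp
  simp only [e1, e2]
  rw [Finset.sum_comm]
  exact Finset.sum_congr rfl fun b _ => Finset.sum_congr rfl fun a _ => (p a b).2.2

end Vale.Agent.P269CQ
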