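import Vale.Agent.P269CQ.Area
import Vale.Agent.P269C.Spec

/-!
# P269CQ / Main : row DC, double counting between two atlases of a groupoid
-/

noncomputable section

namespace Vale.Agent.P269CQ

open Set Filter MeasureTheory Vale.Agent.P269C Vale.Agent.P272.K
open scoped Topology Classical

variable {D : ℕ}

theorem an_strict {φ : Cm D → Cm D} {y : Cm D} (h : AnalyticAt ℂ φ y) :
    HasStrictFDerivAt φ (fderiv ℝ φ y) y :=
  ((h.contDiffAt (n := 1)).restrict_scalars ℝ).hasStrictFDerivAt one_ne_zero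

theorem jac_eq {E : ℕ} {φ : Cm E → Cm D} {y : Cm E} (h : AnalyticAt ℂ φ y) :
    jac φ y = LinearMap.toMatrix' (fderiv ℂ φ y : Cm E →ₗ[ℂ] Cm D) := by
  ext k m
  have h1 : HasFDerivAt (fun x => φ x k)
      (((ContinuousLinearMap.proj k).comp (fderiv ℂ φ y)).restrictScalars ℝ) y :=
    (hasFDerivAt_pi'.1 h.differentiableAt.hasFDerivAt k).restrictScalars ℝ
  have h2 : (Pi.single m Complex.I : Cm E) = Complex.I • Pi.single m 1 := by
    ext j; by_cases hj : j = m <;> simp [hj]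
  simp only [jac, dz, Matrix.of_apply, h1.fderiv, h2, LinearMap.toMatrix'_apply,
    ContinuousLinearMap.coe_restrictScalars', ContinuousLinearMap.comp_apply, map_smul,
    ContinuousLinearMap.proj_apply, smul_eq_mul, ContinuousLinearMap.coe_coe]
  rw [← mul_assoc, Complex.I_mul_I]
  ring

theorem abs_det {φ : Cm D → Cm D} {y : Cm D} (h : AnalyticAt ℂ φ y) :
    |(fderiv ℝ φ y).det| = ‖(jac φ y).det‖ ^ 2 := by
  rw [(h.differentiableAt.hasFDerivAt.restrictScalars ℝ).fderiv, jac_eq h, LinearMap.det_toMatrix']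
  have : ((fderiv ℂ φ y).restrictScalars ℝ).det =
      Algebra.norm ℝ (LinearMap.det (fderiv ℂ φ y : Cm D →ₗ[ℂ] Cm D)) :=
    LinearMap.det_restrictScalars (R := ℝ) (S := ℂ) (f := (fderiv ℂ φ y : Cm D →ₗ[ℂ] Cm D))
  rw [this, Algebra.norm_complex_eq]
  simp [Complex.normSq_eq_norm_sq]

/-- the two integrals agree on the measurable subsets of `O` -/
structure Ok (w ρ : Cm D → ℝ) (T T' : Cm D → ℂ) (N : Cm D → Cm D → ℕ) (Z O : Set (Cm D)) :
    Prop where
  op : IsOpen O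
  fin : ∀ᵐ x, x ∈ tsupport ρ → {y ∈ O | N y x ≠ 0}.Finite ∧ ∀ y ∈ O, y ∈ Z → N y x = 0
  eq : ∀ S ⊆ O, MeasurableSet S →
    IntegrableOn (fun y => w y * T y * ((∑ᶠ x, (N y x : ℝ) * ρ x : ℝ) : ℂ)) S ∧
    Integrable (fun x => ρ x * T' x * ((∑ᶠ y ∈ S, (N y x : ℝ) * w y : ℝ) : ℂ)) ∧
    ∫ y in S, w y * T y * ((∑ᶠ x, (N y x : ℝ) * ρ x : ℝ) : ℂ) =
      ∫ x, ρ x * T' x * ((∑ᶠ y ∈ S, (N y x : ℝ) * w y : ℝ) : ℂ)

variable {w ρ : Cm D → ℝ} {T T' : Cm D → ℂ} {N : Cm D → Cm D → ℕ} {Z : Set (Cm D)}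

theorem Ok.empty : Ok w ρ T T' N Z ∅ where
  op := isOpen_empty
  fin := Eventually.of_forall fun x _ => by simp
  eq S hS _ := by
    rw [subset_empty_iff.1 hS]
    simp

theorem Ok.union {O O' : Set (Cm D)} (h : Ok w ρ T T' N Z O) (h' : Ok w ρ T T' N Z O') :
    Ok w ρ T T' N Z (O ∪ O') where
  op := h.op.union h'.op
  fin := by
    filter_upwards [h.fin, h'.fin] with x h1 h2 hx
    refine ⟨((h1 hx).1.union (h2 hx).1).subset fun y hy => ?_, fun y hy => ?_⟩
    · exact hy.1.elim (fun a => Or.inl ⟨a, hy.2⟩) fun a => Or.inr ⟨a, hy.2⟩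
    · exact hy.elim ((h1 hx).2 y) ((h2 hx).2 y)
  eq S hS hm := by
    have m1 : MeasurableSet (S ∩ O) := hm.inter h.op.measurableSet
    have m2 : MeasurableSet (S \ O) := hm.diff h.op.measurableSet
    have s2 : S \ O ⊆ O' := fun y hy => (hS hy.1).resolve_left hy.2
    obtain ⟨a1, a2, a3⟩ := h.eq _ inter_subset_right m1
    obtain ⟨b1, b2, b3⟩ := h'.eq _ s2 m2
    have hd : Disjoint (S ∩ O) (S \ O) := disjoint_left.2 fun y h1 h2 => h2.2 h1.2
    have e : (fun x => ρ x * T' x * ((∑ᶠ y ∈ S ∩ O, (N y x : ℝ) * w y : ℝ) : ℂ) +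
        ρ x * T' x * ((∑ᶠ y ∈ S \ O, (N y x : ℝ) * w y : ℝ) : ℂ)) =ᵐ[volume]
        fun x => ρ x * T' x * ((∑ᶠ y ∈ S, (N y x : ℝ) * w y : ℝ) : ℂ) := by
      filter_upwards [h.fin, h'.fin] with x h1 h2
      by_cases hx : x ∈ tsupport ρ
      · conv_rhs => rw [← inter_union_sdiff S O]
        rw [finsum_mem_union' hd]
        · push_cast; ring
        · refine (h1 hx).1.subset fun y hy => ⟨hy.1.2, fun h0 => hy.2 ?_⟩
          simp [h0]
        · refine (h2 hx).1.subset fun y hy => ⟨s2 hy.1, fun h0 => hy.2 ?_⟩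
          simp [h0]
      · simp [image_eq_zero_of_notMem_tsupport hx]
    refine ⟨?_, (a2.add b2).congr e, ?_⟩
    · rw [← inter_union_sdiff S O]
      exact a1.union b1
    · rw [← integral_congr_ae e, integral_add a2 b2, ← a3, ← b3, ← setIntegral_union hd m2 a1 b1,
        inter_union_sdiff]

theorem card_mul {k : ℕ} (p : Fin k → Prop) [DecidablePred p] (c : ℝ) :
    ((Finset.univ.filter p).card : ℝ) * c = ∑ j, if p j then c else 0 := by
  rw [← Finset.sum_filter, Finset.sum_const, nsmul_eq_mul]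

theorem ok_loc (hw : Continuous w) (hZ : volume Z = 0) (hρ : Continuous ρ)
    (hT : ∀ x ∈ tsupport ρ, ContinuousAt T' x) {y₀ : Cm D} {k : ℕ} {φ : Fin k → Cm D → Cm D}
    (ha : ∀ j, AnalyticAt ℂ (φ j) y₀)
    (hN : ∀ᶠ y in 𝓝 y₀, ∀ x ∈ tsupport ρ, N y x = (Finset.univ.filter fun j => φ j y = x).card)
    (hφ : ∀ j, φ j y₀ ∈ tsupport ρ →
      ∀ᶠ y in nae y₀, T y = ((‖(jac (φ j) y).det‖ ^ 2 : ℝ) : ℂ) * T' (φ j y)) :
    ∃ O, y₀ ∈ O ∧ Ok w ρ T T' N Z O := by
  have hF : Continuous fun x => (ρ x : ℂ) * T' x := by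
    refine continuous_iff_continuousAt.2 fun x => ?_
    by_cases hx : x ∈ tsupport ρ
    · exact (Complex.continuous_ofReal.comp hρ).continuousAt.mul (hT x hx)
    · refine (continuousAt_const (y := (0 : ℂ))).congr ?_
      filter_upwards [notMem_tsupport_iff_eventuallyEq.1 hx] with z hz
      simp [hz]
  have h1 : ∀ᶠ y in nae y₀, ∀ j, (ρ (φ j y) : ℂ) * T y =
      ((‖(jac (φ j) y).det‖ ^ 2 : ℝ) : ℂ) * (ρ (φ j y) * T' (φ j y)) := by
    refine eventually_all.2 fun j => ?_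
    by_cases hx : φ j y₀ ∈ tsupport ρ
    · filter_upwards [hφ j hx] with y hy
      rw [hy]; ring
    · have := (ha j).continuousAt.eventually (notMem_tsupport_iff_eventuallyEq.1 hx)
      filter_upwards [this.filter_mono (inf_le_left : nae y₀ ≤ 𝓝 y₀)] with y hy
      simp [hy]
  obtain ⟨U, hU, V, hV, hUV⟩ := mem_inf_iff_superset.1 h1
  have h2 : ∀ᶠ y in 𝓝 y₀, ∀ j, AnalyticAt ℂ (φ j) y :=
    eventually_all.2 fun j => (ha j).eventually_analyticAt
  obtain ⟨K, hK, hKs, hKc⟩ := local_compact_nhds (inter_mem hU (h2.and hN))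
  have an : ∀ j, ∀ y ∈ K, AnalyticAt ℂ (φ j) y := fun j y hy => (hKs hy).2.1 j
  have st : ∀ j, ∀ y ∈ K, HasStrictFDerivAt (φ j) (fderiv ℝ (φ j) y) y := fun j y hy =>
    an_strict (an j y hy)
  have cn : ∀ y ∈ K, ∀ x ∈ tsupport ρ, N y x = (Finset.univ.filter fun j => φ j y = x).card :=
    fun y hy => (hKs hy).2.2
  have ex : ∀ y ∈ K, ∀ x ∈ tsupport ρ, N y x ≠ 0 → ∃ j, φ j y = x := by
    intro y hy x hx h0
    rw [cn y hy x hx] at h0
    obtain ⟨j, hj⟩ := Finset.card_ne_zero.1 h0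
    exact ⟨j, (Finset.mem_filter.1 hj).2⟩
  have fi : ∀ᵐ x, ∀ j, (K ∩ φ j ⁻¹' {x}).Finite := by
    refine ae_all_iff.2 fun j => ?_
    filter_upwards [crit_null volume (st j)] with x hx
    exact fib_fin hKc (st j) hx
  refine ⟨interior K, mem_interior_iff_mem_nhds.2 hK, isOpen_interior, ?_, fun S hS hm => ?_⟩
  · have nz : ∀ᵐ x, ∀ j, x ∉ φ j '' (K ∩ Z) := by
      refine ae_all_iff.2 fun j => compl_mem_ae_iff.2 ?_
      exact addHaar_image_eq_zero_of_differentiableOn_of_addHaar_eq_zero volume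
        (fun y hy => (st j y hy.1).hasFDerivAt.differentiableAt.differentiableWithinAt)
        (measure_mono_null inter_subset_right hZ)
    filter_upwards [fi, nz] with x h1 h2 hx
    refine ⟨(finite_iUnion h1).subset fun y hy => ?_, fun y hy hz => ?_⟩
    · obtain ⟨j, hj⟩ := ex y (interior_subset hy.1) x hx hy.2
      exact mem_iUnion.2 ⟨j, interior_subset hy.1, hj⟩
    · by_contra h0
      obtain ⟨j, hj⟩ := ex y (interior_subset hy) x hx h0
      exact h2 j ⟨y, ⟨interior_subset hy, hz⟩, hj⟩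
  · have hSK : S ⊆ K := hS.trans interior_subset
    have hi : ∀ j, IntegrableOn (fun y => |(fderiv ℝ (φ j) y).det| •
        ((w y : ℂ) * (ρ (φ j y) * T' (φ j y)))) S := by
      intro j
      refine (ContinuousOn.integrableOn_compact hKc fun y hy => ?_).mono_set hSK
      have c1 : ContinuousAt (fderiv ℝ (φ j)) y :=
        (((an j y hy).contDiffAt (n := 1)).restrict_scalars ℝ).continuousAt_fderiv one_ne_zero
      exact (((ContinuousLinearMap.continuous_det.continuousAt.comp c1).abs).smul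
        ((Complex.continuous_ofReal.comp hw).continuousAt.mul
          (hF.continuousAt.comp (an j y hy).continuousAt))).continuousWithinAt
    have ar := fun j => area volume hKc (st j) hm hSK (hi j)
    have eA : (fun y => ∑ j, |(fderiv ℝ (φ j) y).det| • ((w y : ℂ) * (ρ (φ j y) * T' (φ j y))))
        =ᵐ[volume.restrict S] fun y => w y * T y * ((∑ᶠ x, (N y x : ℝ) * ρ x : ℝ) : ℂ) := by
      refine (ae_restrict_iff' hm).2 ?_
      filter_upwards [hV] with y hyV hy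
      have e1 : (fun x => (N y x : ℝ) * ρ x) = fun x => ∑ j, if φ j y = x then ρ x else 0 := by
        funext x
        by_cases hx : x ∈ tsupport ρ
        · rw [cn y (hSK hy) x hx, card_mul]
        · simp [image_eq_zero_of_notMem_tsupport hx]
      have e2 : ∑ᶠ x, (N y x : ℝ) * ρ x = ∑ j, ρ (φ j y) := by
        rw [e1, finsum_sum_comm]
        · refine Finset.sum_congr rfl fun j _ => ?_
          rw [finsum_eq_single _ (φ j y) fun x hx => if_neg (Ne.symm hx), if_pos rfl]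
        · intro j _
          exact (finite_singleton (φ j y)).subset fun x hx => by
            by_contra hne
            exact hx (if_neg (Ne.symm hne))
      rw [e2]
      push_cast
      rw [Finset.mul_sum]
      refine Finset.sum_congr rfl fun j _ => ?_
      have := hUV ⟨(hKs (hSK hy)).1, hyV⟩ j
      rw [abs_det (an j y (hSK hy)), Complex.real_smul]
      linear_combination (-w y : ℂ) * this
    have eB : (fun x => ∑ j, ∑ᶠ y ∈ S ∩ φ j ⁻¹' {x}, (w y : ℂ) * (ρ (φ j y) * T' (φ j y)))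
        =ᵐ[volume] fun x => ρ x * T' x * ((∑ᶠ y ∈ S, (N y x : ℝ) * w y : ℝ) : ℂ) := by
      filter_upwards [fi] with x h1
      have hf : ∀ j, (S ∩ φ j ⁻¹' {x}).Finite := fun j =>
        (h1 j).subset (inter_subset_inter_left _ hSK)
      have e3 : ∀ j, ∑ᶠ y ∈ S ∩ φ j ⁻¹' {x}, (w y : ℂ) * (ρ (φ j y) * T' (φ j y)) =
          ρ x * T' x * ((∑ᶠ y ∈ S ∩ φ j ⁻¹' {x}, w y : ℝ) : ℂ) := by
        intro j
        rw [finsum_mem_eq_finite_toFinset_sum _ (hf j), finsum_mem_eq_finite_toFinset_sum _ (hf j)]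
        push_cast
        rw [Finset.mul_sum]
        refine Finset.sum_congr rfl fun y hy => ?_
        rw [show φ j y = x from ((hf j).mem_toFinset.1 hy).2]
        ring
      simp only [e3]
      by_cases hx : x ∈ tsupport ρ
      · rw [← Finset.mul_sum, ← Complex.ofReal_sum]
        congr 2
        simp only [finsum_mem_def]
        rw [← finsum_sum_comm _ _ fun j _ => (hf j).subset support_indicator_subset]
        refine finsum_congr fun y => ?_
        by_cases hy : y ∈ S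
        · rw [indicator_of_mem hy, cn y (hSK hy) x hx, card_mul]
          refine Finset.sum_congr rfl fun j _ => ?_
          simp [indicator, hy]
        · simp [indicator, hy]
      · simp [image_eq_zero_of_notMem_tsupport hx]
    refine ⟨(integrable_finsetSum _ fun j _ => hi j).congr eA,
      (integrable_finsetSum _ fun j _ => (ar j).1).congr eB, ?_⟩
    rw [← integral_congr_ae eA, ← integral_congr_ae eB, integral_finsetSum _ fun j _ => hi j,
      integral_finsetSum _ fun j _ => (ar j).1]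
    exact Finset.sum_congr rfl fun j _ => (ar j).2.symm

theorem pair (hw : Continuous w) (hc : HasCompactSupport w) (hZ : volume Z = 0)
    (hρ : Continuous ρ) (hT : ∀ x ∈ tsupport ρ, ContinuousAt T' x)
    (h : ∀ y₀ ∈ tsupport w, ∃ (k : ℕ) (φ : Fin k → Cm D → Cm D), (∀ j, AnalyticAt ℂ (φ j) y₀) ∧
      (∀ᶠ y in 𝓝 y₀, ∀ x ∈ tsupport ρ, N y x = (Finset.univ.filter fun j => φ j y = x).card) ∧
      ∀ j, φ j y₀ ∈ tsupport ρ →
        ∀ᶠ y in nae y₀, T y = ((‖(jac (φ j) y).det‖ ^ 2 : ℝ) : ℂ) * T' (φ j y)) :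
    Integrable (fun y => w y * T y * ((∑ᶠ x, (N y x : ℝ) * ρ x : ℝ) : ℂ)) ∧
    Integrable (fun x => ρ x * T' x * ((∑ᶠ y ∈ Zᶜ, (N y x : ℝ) * w y : ℝ) : ℂ)) ∧
    ∫ y, w y * T y * ((∑ᶠ x, (N y x : ℝ) * ρ x : ℝ) : ℂ) =
      ∫ x, ρ x * T' x * ((∑ᶠ y ∈ Zᶜ, (N y x : ℝ) * w y : ℝ) : ℂ) := by
  have : ∃ O, tsupport w ⊆ O ∧ Ok w ρ T T' N Z O := by
    refine IsCompact.induction_on (p := fun s => ∃ O, s ⊆ O ∧ Ok w ρ T T' N Z O) hc
      ⟨∅, Subset.rfl, Ok.empty⟩ (fun s t hst ⟨O, h1, h2⟩ => ⟨O, hst.trans h1, h2⟩)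
      (fun s t ⟨O, h1, h2⟩ ⟨O', h3, h4⟩ => ⟨_, union_subset_union h1 h3, h2.union h4⟩) ?_
    intro y hy
    obtain ⟨k, φ, a, b, c⟩ := h y hy
    obtain ⟨O, h1, h2⟩ := ok_loc hw hZ hρ hT a b c
    exact ⟨O, mem_nhdsWithin_of_mem_nhds (h2.op.mem_nhds h1), O, Subset.rfl, h2⟩
  obtain ⟨O, hO, ok⟩ := this
  obtain ⟨a1, a2, a3⟩ := ok.eq _ hO (isClosed_tsupport w).measurableSet
  have z : ∀ y ∉ tsupport w, w y * T y * ((∑ᶠ x, (N y x : ℝ) * ρ x : ℝ) : ℂ) = 0 := fun y hy => by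
    simp [image_eq_zero_of_notMem_tsupport hy]
  have e : (fun x => ρ x * T' x * ((∑ᶠ y ∈ tsupport w, (N y x : ℝ) * w y : ℝ) : ℂ)) =ᵐ[volume]
      fun x => ρ x * T' x * ((∑ᶠ y ∈ Zᶜ, (N y x : ℝ) * w y : ℝ) : ℂ) := by
    filter_upwards [ok.fin] with x h1
    by_cases hx : x ∈ tsupport ρ
    · congr 2
      refine finsum_mem_inter_support_eq' _ _ _ fun y hy => ?_
      have hw' : y ∈ tsupport w := subset_tsupport _ (right_ne_zero_of_mul hy)
      refine iff_of_true hw' fun hz => hy ?_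
      simp [(h1 hx).2 y (hO hw') hz]
    · simp [image_eq_zero_of_notMem_tsupport hx]
  refine ⟨a1.integrable_of_forall_notMem_eq_zero z, a2.congr e, ?_⟩
  rw [← setIntegral_eq_integral_of_forall_compl_eq_zero z, a3, integral_congr_ae e]

theorem dc : DC := by
  intro D ι κ _ _ w ρ T T' N Z h1 h2 h3 h4 h5
  have p := fun a b => pair (h1 a).1 (h1 a).2.1 (h1 a).2.2 (h2 b).1 (h2 b).2.2 (h5 a b)
  have e1 : ∀ a, ∫ y, w a y * T a y =
      ∑ b, ∫ y, w a y * T a y * ((∑ᶠ x, (N a b y x : ℝ) * ρ b x : ℝ) : ℂ) := by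
    intro a
    rw [← integral_finsetSum _ fun b _ => (p a b).1]
    refine integral_congr_ae ?_
    filter_upwards [h3 a] with y hy
    by_cases h0 : w a y = 0
    · simp [h0]
    · rw [← Finset.mul_sum, ← Complex.ofReal_sum, hy h0]
      simp
  have e2 : ∀ b, ∫ x, ρ b x * T' b x =
      ∑ a, ∫ x, ρ b x * T' b x * ((∑ᶠ y ∈ (Z a)ᶜ, (N a b y x : ℝ) * w a y : ℝ) : ℂ) := by
    intro b
    rw [← integral_finsetSum _ fun a _ => (p a b).2.1]
    refine integral_congr_ae ?_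
    filter_upwards [h4 b] with y hy
    by_cases h0 : ρ b y = 0
    · simp [h0]
    · rw [← Finset.mul_sum, ← Complex.ofReal_sum, hy h0]
      simp
  simp only [e1, e2]
  rw [Finset.sum_comm]
  exact Finset.sum_congr rfl fun b _ => Finset.sum_congr rfl fun a _ => (p a b).2.2

end Vale.Agent.P269CQ
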