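import Mathlib

/-!
# P269CQ / Area : the area formula for maps which are not injective
-/

noncomputable section

namespace Vale.Agent.P269CQ

open Set Filter MeasureTheory
open scoped Topology

variable {E : Type} [NormedAddCommGroup E] [NormedSpace ℝ E] [FiniteDimensional ℝ E]
  [MeasurableSpace E] [BorelSpace E] (μ : Measure E) [μ.IsAddHaarMeasure]

omit [MeasurableSpace E] [BorelSpace E] in
theorem loc_inj {φ : E → E} {y : E} (h : HasStrictFDerivAt φ (fderiv ℝ φ y) y)
    (hd : (fderiv ℝ φ y).det ≠ 0) : ∃ U ∈ 𝓝 y, InjOn φ U := by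
  have : CompleteSpace E := FiniteDimensional.complete ℝ E
  have h' : HasStrictFDerivAt φ
      (((fderiv ℝ φ y).toContinuousLinearEquivOfDetNeZero hd : E ≃L[ℝ] E) : E →L[ℝ] E) y := by
    simpa using h
  refine ⟨_, h'.eventually_left_inverse, fun a ha b hb hab => ?_⟩
  have ha' : h'.localInverse φ _ y (φ a) = a := ha
  have hb' : h'.localInverse φ _ y (φ b) = b := hb
  rw [← ha', hab, hb']

theorem crit_null {φ : E → E} {K : Set E} (hφ : ∀ y ∈ K, HasStrictFDerivAt φ (fderiv ℝ φ y) y) :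
    ∀ᵐ x ∂μ, ∀ y ∈ K, φ y = x → (fderiv ℝ φ y).det ≠ 0 := by
  have := addHaar_image_eq_zero_of_det_fderivWithin_eq_zero μ
    (s := {y ∈ K | (fderiv ℝ φ y).det = 0}) (f := φ) (f' := fderiv ℝ φ)
    (fun y hy => (hφ y hy.1).hasFDerivAt.hasFDerivWithinAt) (fun y hy => hy.2)
  filter_upwards [compl_mem_ae_iff.2 this] with x hx y hy hyx hd
  exact hx ⟨y, ⟨hy, hd⟩, hyx⟩

omit [MeasurableSpace E] [BorelSpace E] in
theorem fib_fin {φ : E → E} {K : Set E} (hK : IsCompact K)
    (hφ : ∀ y ∈ K, HasStrictFDerivAt φ (fderiv ℝ φ y) y) {x : E}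
    (hx : ∀ y ∈ K, φ y = x → (fderiv ℝ φ y).det ≠ 0) : (K ∩ φ ⁻¹' {x}).Finite := by
  have hc : IsCompact (K ∩ φ ⁻¹' {x}) := hK.of_isClosed_subset
    (ContinuousOn.preimage_isClosed_of_isClosed
      (fun y hy => (hφ y hy).continuousAt.continuousWithinAt) hK.isClosed isClosed_singleton)
    inter_subset_left
  have : ∀ y, ∃ U : Set E, y ∈ K ∩ φ ⁻¹' {x} → U ∈ 𝓝 y ∧ InjOn φ U := by
    intro y
    by_cases hy : y ∈ K ∩ φ ⁻¹' {x}
    · obtain ⟨U, h1, h2⟩ := loc_inj (hφ y hy.1) (hx y hy.1 hy.2)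
      exact ⟨U, fun _ => ⟨h1, h2⟩⟩
    · exact ⟨∅, fun h => absurd h hy⟩
  choose U hU using this
  obtain ⟨t, ht, hsub⟩ := hc.elim_nhds_subcover U fun y hy => (hU y hy).1
  refine t.finite_toSet.subset fun z hz => ?_
  obtain ⟨y, hy, hzy⟩ := mem_iUnion₂.1 (hsub hz)
  have : z = y := (hU y (ht y hy)).2 hzy (mem_of_mem_nhds (hU y (ht y hy)).1)
    ((show φ z = x from hz.2).trans (show φ y = x from (ht y hy).2).symm)
  rw [this]; exact hy

omit [μ.IsAddHaarMeasure] in
theorem pieces {φ : E → E} {S : Set E} (hS : MeasurableSet S)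
    (hφ : ∀ y ∈ S, HasStrictFDerivAt φ (fderiv ℝ φ y) y) :
    ∃ P : ℕ → Set E, (∀ n, MeasurableSet (P n)) ∧ Pairwise (Function.onFun Disjoint P) ∧
      (∀ n, InjOn φ (P n)) ∧ ⋃ n, P n = S ∩ {y | (fderiv ℝ φ y).det ≠ 0} := by
  classical
  have hb := TopologicalSpace.isBasis_countableBasis E
  obtain ⟨B, hB⟩ := (TopologicalSpace.countable_countableBasis E).exists_eq_range
    (by obtain ⟨V, hV, -⟩ := hb.mem_nhds_iff.1 (univ_mem : univ ∈ 𝓝 (0 : E)); exact ⟨V, hV⟩)
  have hR : MeasurableSet {y | (fderiv ℝ φ y).det ≠ 0} :=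
    (ContinuousLinearMap.continuous_det.measurable.comp (measurable_fderiv ℝ φ))
      (measurableSet_singleton (0 : ℝ)).compl
  let O : ℕ → Set E := fun n => if InjOn φ (B n) then B n else ∅
  have hO : ∀ n, MeasurableSet (O n) := by
    intro n
    by_cases h : InjOn φ (B n)
    · simp only [O, if_pos h]
      exact (hb.isOpen (hB ▸ mem_range_self n)).measurableSet
    · simp [O, if_neg h]
  have hI : ∀ n, InjOn φ (O n) := by
    intro n
    by_cases h : InjOn φ (B n)
    · simpa only [O, if_pos h] using h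
    · simp [O, if_neg h]
  refine ⟨fun n => (S ∩ {y | (fderiv ℝ φ y).det ≠ 0}) ∩ disjointed O n,
    fun n => (hS.inter hR).inter (MeasurableSet.disjointed hO n), ?_,
    fun n => (hI n).mono (inter_subset_right.trans (disjointed_subset O n)), ?_⟩
  · intro a b hab
    exact (disjoint_disjointed O hab).mono inter_subset_right inter_subset_right
  · rw [← inter_iUnion, iUnion_disjointed]
    refine inter_eq_left.2 fun y hy => ?_
    obtain ⟨U, h1, h2⟩ := loc_inj (hφ y hy.1) hy.2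
    obtain ⟨V, hV, hyV, hVU⟩ := hb.mem_nhds_iff.1 h1
    rw [hB] at hV
    obtain ⟨n, rfl⟩ := hV
    exact mem_iUnion.2 ⟨n, by simpa only [O, if_pos (h2.mono hVU)] using hyV⟩

theorem area {φ : E → E} {K S : Set E} (hK : IsCompact K)
    (hφ : ∀ y ∈ K, HasStrictFDerivAt φ (fderiv ℝ φ y) y) (hS : MeasurableSet S) (hSK : S ⊆ K)
    {h : E → ℂ} (hi : IntegrableOn (fun y => |(fderiv ℝ φ y).det| • h y) S μ) :
    Integrable (fun x => ∑ᶠ y ∈ S ∩ φ ⁻¹' {x}, h y) μ ∧
      ∫ x, ∑ᶠ y ∈ S ∩ φ ⁻¹' {x}, h y ∂μ = ∫ y in S, |(fderiv ℝ φ y).det| • h y ∂μ := by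
  classical
  obtain ⟨P, hm, hdis, hinj, hU⟩ := pieces hS fun y hy => hφ y (hSK hy)
  have hPS : ∀ n, P n ⊆ S := fun n => (subset_iUnion P n).trans (hU ▸ inter_subset_left)
  have hd : ∀ n, ∀ y ∈ P n, HasFDerivWithinAt φ (fderiv ℝ φ y) (P n) y := fun n y hy =>
    (hφ y (hSK (hPS n hy))).hasFDerivAt.hasFDerivWithinAt
  let G : ℕ → E → ℂ := fun n x => ∑ᶠ y ∈ P n ∩ φ ⁻¹' {x}, h y
  have G1 : ∀ n, ∀ y ∈ P n, G n (φ y) = h y := by
    intro n y hy
    have : P n ∩ φ ⁻¹' {φ y} = {y} := by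
      ext z
      exact ⟨fun hz => hinj n hz.1 hy hz.2, fun hz => by rw [hz]; exact ⟨hy, rfl⟩⟩
    simp only [G, this, finsum_mem_singleton]
  have G0 : ∀ n, ∀ x ∉ φ '' P n, G n x = 0 := by
    intro n x hx
    have : P n ∩ φ ⁻¹' {x} = ∅ := eq_empty_of_forall_notMem fun z hz => hx ⟨z, hz.1, hz.2⟩
    simp only [G, this, finsum_mem_empty]
  have hmi : ∀ n, MeasurableSet (φ '' P n) := fun n =>
    measurable_image_of_fderivWithin (hm n) (hd n) (hinj n)
  have Gi : ∀ n, Integrable (G n) μ := by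
    intro n
    refine IntegrableOn.integrable_of_forall_notMem_eq_zero (s := φ '' P n) ?_ (G0 n)
    rw [integrableOn_image_iff_integrableOn_abs_det_fderiv_smul μ (hm n) (hd n) (hinj n)]
    refine (hi.mono_set (hPS n)).congr_fun (fun y hy => ?_) (hm n)
    simp only [G1 n y hy]
  have Ge : ∀ n, ∫ x, G n x ∂μ = ∫ y in P n, |(fderiv ℝ φ y).det| • h y ∂μ := by
    intro n
    rw [← setIntegral_eq_integral_of_forall_compl_eq_zero (G0 n),
      integral_image_eq_integral_abs_det_fderiv_smul μ (hm n) (hd n) (hinj n)]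
    exact setIntegral_congr_fun (hm n) fun y hy => by simp only [G1 n y hy]
  have Gn : ∀ n, ∫ x, ‖G n x‖ ∂μ = ∫ y in P n, ‖|(fderiv ℝ φ y).det| • h y‖ ∂μ := by
    intro n
    rw [← setIntegral_eq_integral_of_forall_compl_eq_zero (s := φ '' P n)
      (fun x hx => by rw [G0 n x hx, norm_zero]),
      integral_image_eq_integral_abs_det_fderiv_smul μ (hm n) (hd n) (hinj n)]
    exact setIntegral_congr_fun (hm n) fun y hy => by
      simp only [G1 n y hy, norm_smul, Real.norm_eq_abs, abs_abs, smul_eq_mul]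
  have hiU : IntegrableOn (fun y => |(fderiv ℝ φ y).det| • h y) (⋃ n, P n) μ :=
    hi.mono_set (iUnion_subset hPS)
  have hs : Summable fun n => ∫ x, ‖G n x‖ ∂μ := by
    simp only [Gn]
    exact (hasSum_integral_iUnion hm hdis hiU.norm).summable
  have hae : (fun x => ∑' n, G n x) =ᵐ[μ] fun x => ∑ᶠ y ∈ S ∩ φ ⁻¹' {x}, h y := by
    filter_upwards [crit_null μ hφ] with x hx
    have hf : (S ∩ φ ⁻¹' {x}).Finite := (fib_fin hK hφ hx).subset (inter_subset_inter_left _ hSK)
    have e1 : ∀ n, G n x = ∑ y ∈ hf.toFinset, (P n).indicator h y := by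
      intro n
      simp only [G]
      rw [finsum_mem_def, finsum_eq_sum_of_support_subset (s := hf.toFinset)]
      · refine Finset.sum_congr rfl fun y hy => ?_
        have hy' := hf.mem_toFinset.1 hy
        by_cases hp : y ∈ P n
        · rw [indicator_of_mem hp, indicator_of_mem (show y ∈ P n ∩ φ ⁻¹' {x} from ⟨hp, hy'.2⟩)]
        · rw [indicator_of_notMem hp, indicator_of_notMem fun hh => hp hh.1]
      · intro y hy
        have := support_indicator_subset hy
        exact hf.mem_toFinset.2 ⟨hPS n this.1, this.2⟩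
    have e2 : ∀ y ∈ hf.toFinset, HasSum (fun n => (P n).indicator h y) (h y) := by
      intro y hy
      have hy' := hf.mem_toFinset.1 hy
      have : y ∈ ⋃ n, P n := hU ▸ ⟨hy'.1, hx y (hSK hy'.1) hy'.2⟩
      obtain ⟨n, hn⟩ := mem_iUnion.1 this
      have := hasSum_single (f := fun n => (P n).indicator h y) n fun k hk =>
        indicator_of_notMem (fun hyk => disjoint_left.1 (hdis hk) hyk hn) h
      rwa [indicator_of_mem hn] at this
    simp only [e1]
    rw [(hasSum_sum e2).tsum_eq, finsum_mem_eq_finite_toFinset_sum _ hf]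
  constructor
  · refine Integrable.congr ⟨(AEMeasurable.tsum fun n => (Gi n).1.aemeasurable).aestronglyMeasurable,
      ?_⟩ hae
    refine lt_of_le_of_lt (lintegral_mono fun x => enorm_tsum_le_tsum_enorm) ?_
    rw [lintegral_tsum fun n => (Gi n).1.enorm]
    simp only [← ofReal_integral_norm_eq_lintegral_enorm (Gi _)]
    rw [← ENNReal.ofReal_tsum_of_nonneg (fun n => integral_nonneg fun x => norm_nonneg _) hs]
    exact ENNReal.ofReal_lt_top
  · rw [← integral_congr_ae hae, ← (hasSum_integral_of_summable_integral_norm Gi hs).tsum_eq]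
    simp only [Ge]
    rw [(hasSum_integral_iUnion hm hdis hiU).tsum_eq, hU]
    have hR : MeasurableSet (⋃ n, P n) := MeasurableSet.iUnion hm
    rw [hU] at hR
    refine (setIntegral_eq_of_subset_of_forall_sdiff_eq_zero hS inter_subset_left
      fun y hy => ?_).symm
    have : (fderiv ℝ φ y).det = 0 := by
      by_contra hne
      exact hy.2 ⟨hy.1, hne⟩
    simp [this]

end Vale.Agent.P269CQ
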